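import Vale.Agent.P027.R4.H712.Main
import Vale.Agent.P027.R4.H849.CalP

/-! Row F for the points `a P0` with arbitrary indices `a ≠ 0` (in particular for the points
`C 2^k P0`, whose first coordinates are in `R`). -/

set_option linter.all false

namespace Vale.Agent.P027.R4.H815

open MvPolynomial Vale.Agent.P345 Vale.Agent.P027 Vale.Agent.P027.HT Vale.Agent.P027.D1
  Vale.Agent.P027.D1.H712

/-- the predicates of row F in the calculus -/
theorem rd_rowF (hF : RowF) {B J k : ℕ} {S : Set (Fin k → ℤ)} (hS : REPred (fun a => a ∈ S)) :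
    RD B J (fun _ v => ∃ a ∈ S, ∀ i : Fin k, dec (v (2 * i)) (v (2 * i + 1)) = ix (a i)) := by
  obtain ⟨m, r, F, h⟩ := hF B J k S hS
  refine ⟨rename (Sum.elim (fun ij : Fin k × Fin 2 => Sum.inl (2 * (ij.1 : ℕ) + (ij.2 : ℕ)))
    (Sum.elim (fun i : Fin m => Sum.inr ((i : ℕ), 1)) (fun j : Fin r => Sum.inr ((j : ℕ), 0)))) F,
    fun R hR v => ?_⟩
  have h1 := h R Set.univ hR (fun _ => Set.mem_univ _) (fun ij => v (2 * ij.1 + ij.2))
  have hix : ∀ a : ℤ, ix a ≠ 0 := fun a => by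
    unfold ix
    exact zsmul_P0_ne_zero (by omega)
  have h2 : (∃ a ∈ S, ∀ i : Fin k, dec (v (2 * i)) (v (2 * i + 1)) = ix (a i)) ↔
      (∃ a ∈ S, ∀ i : Fin k, ∃ e : v (2 * i + 1) ^ 2 = v (2 * i) ^ 3 - 2 * v (2 * i),
        pt (v (2 * i)) (v (2 * i + 1)) e = (2 * a i + 1) • P0) := by
    refine exists_congr fun a => and_congr_right fun _ => forall_congr' fun i => ?_
    constructor
    · intro h
      by_cases e : v (2 * i + 1) ^ 2 = v (2 * i) ^ 3 - 2 * v (2 * i)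
      · refine ⟨e, ?_⟩
        rw [dec_of e] at h
        exact h
      · rw [dec_of_not e] at h
        exact absurd h.symm (hix _)
    · rintro ⟨e, h⟩
      rw [dec_of e, h]
      rfl
  refine h2.trans ?_
  have key : ∀ y : ℕ → Fin 2 → ℚ,
      envR v y ∘ (Sum.elim (fun ij : Fin k × Fin 2 => Sum.inl (2 * (ij.1 : ℕ) + (ij.2 : ℕ)))
        (Sum.elim (fun i : Fin m => Sum.inr ((i : ℕ), 1))
          (fun j : Fin r => Sum.inr ((j : ℕ), 0)))) =
      Sum.elim (fun ij : Fin k × Fin 2 => v (2 * ij.1 + ij.2))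
        (Sum.elim (fun i : Fin m => y i 1) (fun j : Fin r => y j 0)) := by
    intro y; funext i; rcases i with i | i | i <;> rfl
  simp only [aeval_rename, key]
  constructor
  · intro h3
    obtain ⟨u, w, hu, -, hw⟩ := h1.1 h3
    refine ⟨fun i => ![if h : i < r then w ⟨i, h⟩ else 0, if h : i < m then u ⟨i, h⟩ else 0],
      ?_, fun i => ?_⟩
    · have e1 : (fun i : Fin m => (![if h : (i : ℕ) < r then w ⟨i, h⟩ else 0,
          if h : (i : ℕ) < m then u ⟨i, h⟩ else 0] : Fin 2 → ℚ) 1) = u := by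
        funext i
        show (if h : (i : ℕ) < m then u ⟨i, h⟩ else 0) = u i
        rw [dif_pos i.2]
      have e2 : (fun j : Fin r => (![if h : (j : ℕ) < r then w ⟨j, h⟩ else 0,
          if h : (j : ℕ) < m then u ⟨j, h⟩ else 0] : Fin 2 → ℚ) 0) = w := by
        funext j
        show (if h : (j : ℕ) < r then w ⟨j, h⟩ else 0) = w j
        rw [dif_pos j.2]
      rw [e1, e2]
      exact hw
    · show (if h : i < m then u ⟨i, h⟩ else 0) ∈ R
      split_ifs with h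
      · exact hu _
      · exact zero_mem hR
  · rintro ⟨y, hy, hy'⟩
    exact h1.2 ⟨_, _, fun i => hy' i, fun _ => Set.mem_univ _, hy⟩

/-- the points `a P0`, in the calculus -/
theorem rd_all (hF : RowF) {B J k : ℕ} {S : Set (Fin k → ℤ)} (hS : REPred (fun a => a ∈ S)) :
    RD B J (fun _ v => ∃ a ∈ S, ∀ i : Fin k, dec (v (2 * i)) (v (2 * i + 1)) = (a i) • P0) := by
  have hU : REPred (fun a : Fin k → ℤ => a ∈ (Set.univ : Set (Fin k → ℤ))) := by
    refine (Partrec.const' (Part.some ())).of_eq (fun a => ?_)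
    exact (Part.assert_pos (f := fun _ => Part.some ()) (Set.mem_univ a)).symm
  have hT := rd_rowF hF (B := B) (J := J) hS
  have hV := rd_rowF hF (B := B) (J := J) hU
  have hW : RD B J (fun R w =>
      ((∃ a ∈ S, ∀ i : Fin k, dec (w (2 * i)) (w (2 * i + 1)) = ix (a i)) ∧
      (∃ a ∈ (Set.univ : Set (Fin k → ℤ)), ∀ i : Fin k,
        dec (w (2 * i + 2 * k)) (w (2 * i + 1 + 2 * k)) = ix (a i))) ∧
      (∀ i < k, (dec (w (2 * i + 4 * k)) (w (2 * i + 1 + 4 * k)) =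
          dec (w (2 * i + 2 * k)) (w (2 * i + 1 + 2 * k)) ∨
        dec (w (2 * i + 4 * k)) (w (2 * i + 1 + 4 * k)) =
          dec (w (2 * i + 2 * k)) (w (2 * i + 1 + 2 * k)) - P0) ∧
        dec (w (2 * i + 4 * k)) (w (2 * i + 1 + 4 * k)) +
          dec (w (2 * i + 4 * k)) (w (2 * i + 1 + 4 * k)) + P0 =
          dec (w (2 * i)) (w (2 * i + 1)))) := by
    refine (hT.and ?_).and (RD.all_lt k (S := fun i _ w =>
      (dec (w (2 * i + 4 * k)) (w (2 * i + 1 + 4 * k)) =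
          dec (w (2 * i + 2 * k)) (w (2 * i + 1 + 2 * k)) ∨
        dec (w (2 * i + 4 * k)) (w (2 * i + 1 + 4 * k)) =
          dec (w (2 * i + 2 * k)) (w (2 * i + 1 + 2 * k)) - P0) ∧
        dec (w (2 * i + 4 * k)) (w (2 * i + 1 + 4 * k)) +
          dec (w (2 * i + 4 * k)) (w (2 * i + 1 + 4 * k)) + P0 =
          dec (w (2 * i)) (w (2 * i + 1))) fun i => ?_)
    · exact hV.ren (fun i => i + 2 * k)
    · refine RD.and (RDio.or (RD.of_dio ?_) (RD.of_dio ?_)) (RD.of_dio ?_)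
      · exact dio_pt_eq (DPt.dec (DioFn.var _) (DioFn.var _)) (DPt.dec (DioFn.var _) (DioFn.var _))
      · exact dio_pt_eq (DPt.dec (DioFn.var _) (DioFn.var _))
          ((DPt.dec (DioFn.var _) (DioFn.var _)).sub (DPt.const _))
      · exact dio_pt_eq (((DPt.dec (DioFn.var _) (DioFn.var _)).add
          (DPt.dec (DioFn.var _) (DioFn.var _))).add (DPt.const _))
          (DPt.dec (DioFn.var _) (DioFn.var _))
  refine (RD.exN (4 * k) hW).congr (fun R hR v => ?_)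
  have e0 : ∀ n : ℤ, n • P0 + n • P0 + P0 = ix n := by
    intro n
    unfold ix
    rw [← add_zsmul]
    nth_rw 2 [← one_zsmul P0]
    rw [← add_zsmul]
    congr 1
    ring
  constructor
  · rintro ⟨a, haS, ha⟩
    have hc : ∀ P : EC.Point, ∃ xy : ℚ × ℚ, dec xy.1 xy.2 = P := by
      intro P
      obtain ⟨x, y, hxy⟩ := exists_dec P
      exact ⟨(x, y), hxy⟩
    choose c hc using hc
    let p : ℕ → EC.Point := fun i => if h : i < k then ix (a ⟨i, h⟩) else
      if h : i - k < k then ix (a ⟨i - k, h⟩ / 2) else 0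
    let u : ℕ → ℚ := fun i => if i % 2 = 0 then (c (p (i / 2))).1 else (c (p (i / 2))).2
    have hu : ∀ i < 2 * k, dec (blk (4 * k) u v (2 * i)) (blk (4 * k) u v (2 * i + 1)) =
        p i := by
      intro i hi
      rw [blk_lt _ _ (by omega), blk_lt _ _ (by omega)]
      have e3 : (2 * i) % 2 = 0 := by omega
      have e4 : ¬ (2 * i + 1) % 2 = 0 := by omega
      have e5 : (2 * i) / 2 = i := by omega
      have e6 : (2 * i + 1) / 2 = i := by omega
      simp only [u, e3, e4, e5, e6, if_true, if_false]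
      exact hc _
    have hp1 : ∀ i : Fin k, p i = ix (a i) := by
      intro i
      simp only [p, dif_pos i.2, Fin.eta]
    have hp2 : ∀ i : Fin k, p (i + k) = ix (a i / 2) := by
      intro i
      have h1 : ¬ ((i : ℕ) + k < k) := by omega
      have h2 : (i : ℕ) + k - k = i := by omega
      simp only [p, dif_neg h1, h2, dif_pos i.2, Fin.eta]
    have hz' : ∀ i : Fin k, dec (blk (4 * k) u v (2 * i + 2 * k))
        (blk (4 * k) u v (2 * i + 1 + 2 * k)) = ix (a i / 2) := by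
      intro i
      have h1 := hu (i + k) (by omega)
      rw [hp2] at h1
      have e1 : 2 * ((i : ℕ) + k) = 2 * i + 2 * k := by ring
      have e2 : 2 * (i : ℕ) + 2 * k + 1 = 2 * i + 1 + 2 * k := by ring
      rw [e1, e2] at h1
      exact h1
    refine ⟨u, ⟨⟨a, haS, fun i => ?_⟩, ⟨fun i => a i / 2, Set.mem_univ _, hz'⟩⟩, fun i hi => ?_⟩
    · rw [hu i (by omega), hp1]
    · have hX : dec (blk (4 * k) u v (2 * i + 4 * k)) (blk (4 * k) u v (2 * i + 1 + 4 * k)) =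
          (a ⟨i, hi⟩) • P0 := by
        rw [blk_add, blk_add]
        exact ha ⟨i, hi⟩
      have hz := hz' ⟨i, hi⟩
      have hz1 := hu i (by omega)
      rw [hp1 ⟨i, hi⟩] at hz1
      simp only at hz
      rw [hX, hz, hz1, e0]
      refine ⟨?_, rfl⟩
      rcases Int.even_or_odd (a ⟨i, hi⟩) with he | ho
      · right
        rw [ix_sub]
        congr 1
        rw [Int.even_iff] at he
        omega
      · left
        unfold ix
        congr 1
        rw [Int.odd_iff] at ho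
        omega
  · rintro ⟨u, ⟨⟨a, haS, ha⟩, ⟨b, -, hb⟩⟩, h3⟩
    refine ⟨a, haS, fun i => ?_⟩
    obtain ⟨h4, h5⟩ := h3 i i.2
    rw [ha i] at h5
    rw [hb i] at h4
    rw [blk_add, blk_add] at h4 h5
    obtain ⟨n, hn⟩ : ∃ n : ℤ, dec (v (2 * i)) (v (2 * i + 1)) = n • P0 := by
      rcases h4 with h4 | h4
      · exact ⟨2 * b i + 1, h4⟩
      · exact ⟨2 * b i, h4.trans (ix_sub _)⟩
    rw [hn, e0] at h5
    rw [hn, ix_inj h5]

/-- **Recursively enumerable sets of tuples of multiples of `P0`.** -/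
theorem rowAll (hF : RowF) (hC2 : RowC2) (B J k : ℕ) (S : Set (Fin k → ℤ))
    (hS : REPred (fun a => a ∈ S)) (h0 : ∀ a ∈ S, ∀ i, a i ≠ 0) :
    ∃ (m r : ℕ) (F : MvPolynomial ((Fin k × Fin 2) ⊕ Fin m ⊕ Fin r) ℤ), ∀ R R' : Set ℚ, Cls B J R →
      (∀ z : ℤ, (z : ℚ) ∈ R') → ∀ z : Fin k × Fin 2 → ℚ,
      ((∃ a ∈ S, ∀ i, ∃ e : z (i, 1) ^ 2 = z (i, 0) ^ 3 - 2 * z (i, 0),
          pt (z (i, 0)) (z (i, 1)) e = (a i) • P0) ↔
        ∃ (u : Fin m → ℚ) (y : Fin r → ℚ), (∀ i, u i ∈ R) ∧ (∀ j, y j ∈ R') ∧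
          aeval (Sum.elim z (Sum.elim u y)) F = 0) := by
  have hY : RD B J (fun R v => (fun (R : Set ℚ) (x : Fin (2 * k) → ℚ) => ∃ a ∈ S, ∀ i : Fin k,
      dec (x ⟨2 * i, by omega⟩) (x ⟨2 * i + 1, by omega⟩) = (a i) • P0) R (fun i => v i)) :=
    rd_all hF hS
  obtain ⟨m, r, F, hF'⟩ := @hC2 (Cls B J) (fun R hR => zero_mem hR) (2 * k)
    (fun (_ : Set ℚ) (x : Fin (2 * k) → ℚ) => ∃ a ∈ S, ∀ i : Fin k,
      dec (x ⟨2 * i, by omega⟩) (x ⟨2 * i + 1, by omega⟩) = (a i) • P0) hY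
  let g : Fin (2 * k) → Fin k × Fin 2 := fun i =>
    (⟨(i : ℕ) / 2, by omega⟩, ⟨(i : ℕ) % 2, Nat.mod_lt _ (by norm_num)⟩)
  refine ⟨m, r, rename (Sum.map g id) F, fun R R' hR hR' z => ?_⟩
  have key : ∀ (u : Fin m → ℚ) (y : Fin r → ℚ),
      Sum.elim z (Sum.elim u y) ∘ Sum.map g id = Sum.elim (z ∘ g) (Sum.elim u y) := by
    intro u y; funext i; rcases i with i | i <;> rfl
  simp only [aeval_rename, key]
  rw [← hF' R R' hR hR' (z ∘ g)]
  have hg0 : ∀ i : Fin k, g ⟨2 * i, by omega⟩ = (i, 0) := by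
    intro i
    refine Prod.ext (Fin.ext ?_) (Fin.ext ?_)
    · show (2 * (i : ℕ)) / 2 = i
      omega
    · show (2 * (i : ℕ)) % 2 = 0
      omega
  have hg1 : ∀ i : Fin k, g ⟨2 * i + 1, by omega⟩ = (i, 1) := by
    intro i
    refine Prod.ext (Fin.ext ?_) (Fin.ext ?_)
    · show (2 * (i : ℕ) + 1) / 2 = i
      omega
    · show (2 * (i : ℕ) + 1) % 2 = 1
      omega
  refine exists_congr fun a => and_congr_right fun haS => forall_congr' fun i => ?_
  show _ ↔ dec (z (g ⟨2 * i, by omega⟩)) (z (g ⟨2 * i + 1, by omega⟩)) = (a i) • P0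
  rw [hg0, hg1]
  constructor
  · rintro ⟨e, h⟩
    rw [dec_of e, h]
  · intro h
    by_cases e : z (i, 1) ^ 2 = z (i, 0) ^ 3 - 2 * z (i, 0)
    · refine ⟨e, ?_⟩
      rw [dec_of e] at h
      exact h
    · rw [dec_of_not e] at h
      exact absurd h.symm (zsmul_P0_ne_zero (h0 a haS i))

/-- the first coordinates of the points `a P0`, in the calculus -/
theorem rd_allX (hF : RowF) {B J k : ℕ} {S : Set (Fin k → ℤ)} (hS : REPred (fun a => a ∈ S))
    (h0 : ∀ a ∈ S, ∀ i, a i ≠ 0) :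
    RD B J (fun _ v => ∃ a ∈ S, ∀ i : Fin k, v i = xc ((a i) • P0)) := by
  have hW : RD B J (fun R w =>
      (∃ a ∈ S, ∀ i : Fin k, dec (w (2 * i)) (w (2 * i + 1)) = (a i) • P0) ∧
      (∀ i < k, w (i + 2 * k) = w (2 * i))) := by
    refine (rd_all hF hS).and (RD.all_lt k (S := fun i _ w => w (i + 2 * k) = w (2 * i))
      fun i => RD.of_dio ?_)
    exact Dio.eq (DioFn.var _) (DioFn.var _)
  refine (RD.exN (2 * k) hW).congr (fun R hR v => ?_)
  constructor
  · rintro ⟨a, haS, ha⟩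
    have hc : ∀ n : ℤ, ∃ y : ℚ, n ≠ 0 → dec (xc (n • P0)) y = n • P0 := by
      intro n
      by_cases hn : n = 0
      · exact ⟨0, fun h => absurd hn h⟩
      · obtain ⟨y, h1, h2⟩ := hasX_xc (zsmul_P0_ne_zero hn)
        exact ⟨y, fun _ => by rw [dec_of h1, ← h2]⟩
    choose c hc using hc
    let u : ℕ → ℚ := fun i => if h : i / 2 < k then
      (if i % 2 = 0 then v (i / 2) else c (a ⟨i / 2, h⟩)) else 0
    have hu1 : ∀ i : Fin k, u (2 * i) = v i := by
      intro i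
      have h1 : (2 * (i : ℕ)) / 2 = i := by omega
      have h3 : (2 * (i : ℕ)) % 2 = 0 := by omega
      simp only [u, h1, h3, i.2, dif_pos, if_true]
    have hu2 : ∀ i : Fin k, u (2 * i + 1) = c (a i) := by
      intro i
      have h1 : (2 * (i : ℕ) + 1) / 2 = i := by omega
      have h3 : ¬ (2 * (i : ℕ) + 1) % 2 = 0 := by omega
      simp only [u, h1, h3, i.2, dif_pos, if_false, Fin.eta]
    refine ⟨u, ⟨a, haS, fun i => ?_⟩, fun i hi => ?_⟩
    · rw [blk_lt _ _ (by omega), blk_lt _ _ (by omega), hu1, hu2, ha i]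
      exact hc _ (h0 a haS i)
    · rw [blk_add, blk_lt _ _ (by omega)]
      exact (hu1 ⟨i, hi⟩).symm
  · rintro ⟨u, ⟨a, haS, ha⟩, h3⟩
    refine ⟨a, haS, fun i => ?_⟩
    have h4 := h3 i i.2
    rw [blk_add] at h4
    have h5 := ha i
    have h6 := zsmul_P0_ne_zero (h0 a haS i)
    have h7 : HasX ((a i) • P0) (blk (2 * k) u v (2 * i)) := by
      by_cases e : blk (2 * k) u v (2 * i + 1) ^ 2 =
          blk (2 * k) u v (2 * i) ^ 3 - 2 * blk (2 * k) u v (2 * i)
      · refine ⟨_, e, ?_⟩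
        rw [← dec_of e, h5]
      · rw [dec_of_not e] at h5
        exact absurd h5.symm h6
    rw [h4]
    exact h7.unique (hasX_xc h6)

/-- **Recursively enumerable sets of tuples of first coordinates of multiples of `P0`.** With
`S` contained in the tuples of the numbers `C 2 ^ k` this is a Diophantine model of the integers
inside `R`. -/
theorem rowAllX (hF : RowF) (hC2 : RowC2) (B J k : ℕ) (S : Set (Fin k → ℤ))
    (hS : REPred (fun a => a ∈ S)) (h0 : ∀ a ∈ S, ∀ i, a i ≠ 0) :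
    ∃ (m r : ℕ) (F : MvPolynomial (Fin k ⊕ Fin m ⊕ Fin r) ℤ), ∀ R R' : Set ℚ, Cls B J R →
      (∀ z : ℤ, (z : ℚ) ∈ R') → ∀ x : Fin k → ℚ,
      ((∃ a ∈ S, ∀ i, x i = xc ((a i) • P0)) ↔
        ∃ (u : Fin m → ℚ) (y : Fin r → ℚ), (∀ i, u i ∈ R) ∧ (∀ j, y j ∈ R') ∧
          aeval (Sum.elim x (Sum.elim u y)) F = 0) := by
  have hY : RD B J (fun R v => (fun (_ : Set ℚ) (x : Fin k → ℚ) => ∃ a ∈ S, ∀ i : Fin k,
      x i = xc ((a i) • P0)) R (fun i => v i)) := rd_allX hF hS h0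
  exact @hC2 (Cls B J) (fun R hR => zero_mem hR) k
    (fun (_ : Set ℚ) (x : Fin k → ℚ) => ∃ a ∈ S, ∀ i : Fin k, x i = xc ((a i) • P0)) hY

end Vale.Agent.P027.R4.H815
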