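import Vale.Agent.P027.R4.H815.RowH

/-! The class `Cls B C` is not empty: explicit members, and the largest ones. -/

set_option linter.all false

namespace Vale.Agent.P027.R4.H815

open Vale.Agent.P345 Vale.Agent.P027 Vale.Agent.P027.HT Vale.Agent.P027.D1

/-- the rationals whose denominators contain no prime `q` such that the order of `P0` modulo `q`
is a power `r ^ e > B` of a prime `r` that does not divide `2 C` -/
def RMax (B C : ℕ) : Set ℚ :=
  {t | ∀ q r e : ℕ, q.Prime → r.Prime → ¬ r ∣ 2 * C → 1 ≤ e → B < r ^ e → Ord q (r ^ e) →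
    ¬ q ∣ t.den}

/-- every set between `Z ∪ {x(C 2^k)}` and `RMax B C` is in the class -/
theorem cls_of_subset : ∃ B0 : ℕ, ∀ (B C : ℕ) (R : Set ℚ), 0 < C → (∀ z : ℤ, (z : ℚ) ∈ R) →
    (∀ k : ℕ, 1 ≤ k → xc ((C * 2 ^ k : ℤ) • P0) ∈ R) → R ⊆ RMax B C → Cls (max B B0) C R := by
  obtain ⟨B0, hB0⟩ := rowH
  refine ⟨B0, fun B C R hC hZ h2 hR => ⟨hC, hZ, h2, fun r e hr hrC he hB => ?_⟩⟩
  have hr2 : r ≠ 2 := by
    rintro rfl
    exact hrC (dvd_mul_right _ _)
  obtain ⟨q, hq, ho⟩ := hB0 r e hr hr2 he (lt_of_le_of_lt (le_max_right _ _) hB)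
  refine ⟨q, hq, ⟨1, one_dvd _, by rw [one_mul]; exact ho⟩, fun t ht => ?_⟩
  exact hR ht q r e hq hr hrC he (lt_of_le_of_lt (le_max_left _ _) hB) ho

theorem int_mem_RMax (B C : ℕ) (z : ℤ) : (z : ℚ) ∈ RMax B C := by
  intro q r e hq _ _ _ _ _ h
  rw [Rat.den_intCast] at h
  exact hq.one_lt.ne' (Nat.dvd_one.1 h)

/-- the coordinates `x(C 2^k)` are in `RMax B C` -/
theorem two_mem_RMax (B C : ℕ) (hC : 0 < C) (k : ℕ) : xc ((C * 2 ^ k : ℤ) • P0) ∈ RMax B C := by
  intro q r e hq hr hrC he _ ho h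
  have h1 : Dv q (C * 2 ^ k) := Or.inr h
  rw [ho.2] at h1
  have h2 : r ∣ C * 2 ^ k := by
    have h3 : (r : ℤ) ∣ ((C * 2 ^ k : ℕ) : ℤ) := by
      refine dvd_trans ?_ (dvd_trans h1 (dvd_of_eq (by push_cast; rfl)))
      push_cast
      exact dvd_pow_self _ (by omega)
    exact Int.natCast_dvd_natCast.1 h3
  rcases hr.dvd_mul.1 h2 with h3 | h3
  · exact hrC (h3.mul_left 2)
  · exact hrC ((hr.dvd_of_dvd_pow h3).mul_right C)

/-- `RMax B C` as a subring -/
def RMaxRing (B C : ℕ) : Subring ℚ where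
  carrier := RMax B C
  mul_mem' := by
    intro a b ha hb q r e hq hr hrC he hB ho h
    have h1 := h.trans (Rat.mul_den_dvd a b)
    rcases hq.dvd_mul.1 h1 with h2 | h2
    · exact ha q r e hq hr hrC he hB ho h2
    · exact hb q r e hq hr hrC he hB ho h2
  one_mem' := by
    have := int_mem_RMax B C 1
    simpa only [Int.cast_one] using this
  add_mem' := by
    intro a b ha hb q r e hq hr hrC he hB ho h
    have h1 := h.trans (Rat.add_den_dvd a b)
    rcases hq.dvd_mul.1 h1 with h2 | h2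
    · exact ha q r e hq hr hrC he hB ho h2
    · exact hb q r e hq hr hrC he hB ho h2
  zero_mem' := by
    have := int_mem_RMax B C 0
    simpa only [Int.cast_zero] using this
  neg_mem' := by
    intro a ha q r e hq hr hrC he hB ho h
    rw [Rat.den_neg_eq_den] at h
    exact ha q r e hq hr hrC he hB ho h

/-- the ring `Z[1/S]` -/
def Loc (S : Set ℕ) : Set ℚ := {t | ∀ q : ℕ, q.Prime → q ∣ t.den → q ∈ S}

/-- the ring `Z[1/S]` is in the class as soon as `S` contains the primes of order dividing some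
`C 2^k` and, for large prime powers `r ^ e` with `r` prime to `2 C`, no prime of order `r ^ e` -/
theorem cls_loc : ∃ B0 : ℕ, ∀ (B C : ℕ) (S : Set ℕ), 0 < C →
    (∀ q m k : ℕ, q.Prime → Ord q m → m ∣ C * 2 ^ k → q ∈ S) →
    (∀ q r e : ℕ, q.Prime → r.Prime → ¬ r ∣ 2 * C → 1 ≤ e → B < r ^ e → Ord q (r ^ e) → q ∉ S) →
    Cls (max B B0) C (Loc S) := by
  obtain ⟨B0, hB0⟩ := cls_of_subset
  refine ⟨B0, fun B C S hC h1 h2 => hB0 B C _ hC ?_ ?_ ?_⟩
  · intro z q hq h
    rw [Rat.den_intCast] at h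
    exact absurd (Nat.dvd_one.1 h) hq.one_lt.ne'
  · intro k _ q hq h
    have h3 : Dv q ((C * 2 ^ k : ℕ) : ℤ) := by
      right
      push_cast
      exact h
    obtain ⟨m, ho, hm⟩ := rowO q hq (C * 2 ^ k) (by positivity) h3
    exact h1 q m k hq ho hm
  · intro t ht q r e hq hr hrC he hB ho h
    exact h2 q r e hq hr hrC he hB ho (ht q hq h)

end Vale.Agent.P027.R4.H815
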