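import Vale.Agent.P027.R4.H815.Cor

/-! Part SP, row E: heights. For a large prime `r = s ^ 2 + t ^ 2` the denominator of `x(r P0)` has
a prime power factor that does not divide the numerator of `x(s P0) + x(t P0)`. -/

set_option linter.all false

namespace Vale.Agent.P027.R4.H815

open Vale.Agent.P345 Vale.Agent.P027 Vale.Agent.P027.HT Vale.Agent.P027.D1 Height

/-- growth of the heights of all multiples -/
theorem all_growth : ∃ κ C : ℝ, 0 < κ ∧ ∀ (n : ℤ) (x : ℚ), HasX (n • P0) x →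
    |Real.log (H x) - κ * (n : ℝ) ^ 2| ≤ C := by
  obtain ⟨C, hC⟩ := parallelogram
  have h0 : lh (0 : EC.Point) = 0 := by
    unfold lh
    rw [xRep_zero', ← logHeight_swap, ← logHeight₁_eq_logHeight, logHeight₁_zero]
  obtain ⟨κ, hκ⟩ := quadratic_of_parallelogram (g := fun n : ℤ => lh (n • P0)) (C := C)
    (by simp only [zero_zsmul, h0]) (fun m n => by
      have h1 := hC (m • P0) (n • P0)
      have e : m • P0 - n • P0 = (m - n) • P0 := by rw [sub_zsmul, sub_eq_add_neg]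
      rw [← add_zsmul, e] at h1
      exact h1)
  obtain ⟨κ', C', hκ', hC'⟩ := odd_growth
  have hall : ∀ (n : ℤ) (x : ℚ), HasX (n • P0) x → |Real.log (H x) - κ * (n : ℝ) ^ 2| ≤ 2 * C := by
    intro n x hx
    have := hκ n
    rw [lh_hasX hx] at this
    exact this
  refine ⟨κ, 2 * C, ?_, hall⟩
  -- compare the two constants on a large odd index
  by_contra hneg
  push Not at hneg
  obtain ⟨N, hN⟩ := exists_nat_gt ((C' + 2 * C) / κ')
  obtain ⟨x, c, d, h⟩ := oddForm_exists (n := 2 * (N : ℤ) + 1) ⟨N, rfl⟩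
  have h1 := hC' _ _ h.odd h.hasX
  have h2 := hall _ _ h.hasX
  rw [abs_le] at h1 h2
  have hN0 : (0 : ℝ) ≤ N := Nat.cast_nonneg N
  have h3 : κ * ((2 * (N : ℤ) + 1 : ℤ) : ℝ) ^ 2 ≤ 0 :=
    mul_nonpos_of_nonpos_of_nonneg hneg (sq_nonneg _)
  have h4 : κ' * (N : ℝ) ≤ κ' * ((2 * (N : ℤ) + 1 : ℤ) : ℝ) ^ 2 := by
    apply mul_le_mul_of_nonneg_left _ hκ'.le
    push_cast
    nlinarith only [hN0]
  rw [div_lt_iff₀ hκ'] at hN
  linarith only [h1.1, h2.2, h3, h4, hN]

/-- the denominator of an odd multiple -/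
lemma oddForm_den {n : ℤ} {x : ℚ} {c d : ℕ} (h : OddForm n x c d) : x.den = d ^ 2 := by
  have hd := h.d_pos
  have h2 : (((c ^ 2 : ℕ) : ℚ) / ((d ^ 2 : ℕ) : ℚ)).den = d ^ 2 := by
    have h3 := Rat.den_div_eq_of_coprime (a := ((c ^ 2 : ℕ) : ℤ)) (b := ((d ^ 2 : ℕ) : ℤ))
      (by positivity) (by
        simp only [Int.natAbs_natCast]
        exact Nat.Coprime.pow _ _ h.cop)
    rw [Int.cast_natCast, Int.cast_natCast] at h3
    exact_mod_cast h3
  rw [h.eq, Rat.den_neg_eq_den]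
  push_cast at h2
  exact h2

/-- first coordinates of odd multiples are not opposite to other first coordinates -/
lemma add_ne_zero_of_odd {n : ℤ} {x z : ℚ} {c d : ℕ} (h : OddForm n x c d) {V : EC.Point}
    (hV : HasX V z) : x + z ≠ 0 := by
  intro h0
  obtain ⟨y, hy, -⟩ := hV
  have hc : (0 : ℚ) < c := by exact_mod_cast h.c_pos
  have hd : (0 : ℚ) < d := by exact_mod_cast h.d_pos
  have hz : z = (c : ℚ) ^ 2 / (d : ℚ) ^ 2 := by
    have := h.eq
    linarith only [this, h0]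
  have hz0 : 0 < z := by rw [hz]; positivity
  have h1 : 0 ≤ z * (z ^ 2 - 2) := by
    have := sq_nonneg y
    rw [hy] at this
    nlinarith only [this]
  have h2 : 2 ≤ z ^ 2 := by
    by_contra hcon
    push Not at hcon
    nlinarith only [h1, hcon, hz0]
  have h3 : (2 * d ^ 4 : ℚ) ≤ c ^ 4 := by
    rw [hz, div_pow, le_div_iff₀ (by positivity)] at h2
    nlinarith only [h2]
  have h4 : 2 * d ^ 4 ≤ c ^ 4 := by exact_mod_cast h3
  have h5 : c ^ 4 = 2 * d ^ 4 := le_antisymm h.le h4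
  have h6 : c ^ 4 % 2 = 1 := by
    rw [Nat.pow_mod, h.c_odd]
  omega

/-- numerator of a sum -/
lemma natAbs_num_add_le (x z : ℚ) : (x + z).num.natAbs ≤ 2 * (H x * H z) := by
  have h1 : (x + z).num ∣ x.num * z.den + z.num * x.den := by
    have := Rat.add_num_den' x z
    have h2 := Rat.num_dvd (x.num * z.den + z.num * x.den)
      (b := (x.den : ℤ) * z.den) (by
        have := x.den_nz; have := z.den_nz
        positivity)
    have h3 : ((x.num * z.den + z.num * x.den : ℤ) : ℚ) / ((x.den : ℤ) * z.den : ℤ) = x + z := by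
      push_cast
      have e1 : (x.den : ℚ) ≠ 0 := by exact_mod_cast x.den_nz
      have e2 : (z.den : ℚ) ≠ 0 := by exact_mod_cast z.den_nz
      conv_rhs => rw [← Rat.num_div_den x, ← Rat.num_div_den z]
      field_simp
    rw [Rat.divInt_eq_div, h3] at h2
    exact h2
  by_cases h0 : x.num * z.den + z.num * x.den = 0
  · have h2 : x + z = 0 := by
      have e1 : (x.den : ℚ) ≠ 0 := by exact_mod_cast x.den_nz
      have e2 : (z.den : ℚ) ≠ 0 := by exact_mod_cast z.den_nz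
      have h3 : (x.num : ℚ) * z.den + z.num * x.den = 0 := by exact_mod_cast h0
      rw [← Rat.num_div_den x, ← Rat.num_div_den z]
      field_simp
      linarith only [h3]
    rw [h2]
    simp
  · have h2 := Int.natAbs_le_of_dvd_ne_zero h1 h0
    have hx1 : x.num.natAbs ≤ H x := le_max_left _ _
    have hx2 : x.den ≤ H x := le_max_right _ _
    have hz1 : z.num.natAbs ≤ H z := le_max_left _ _
    have hz2 : z.den ≤ H z := le_max_right _ _
    have h3 : (x.num * z.den + z.num * x.den).natAbs ≤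
        x.num.natAbs * z.den + z.num.natAbs * x.den := by
      refine (Int.natAbs_add_le _ _).trans ?_
      rw [Int.natAbs_mul, Int.natAbs_mul, Int.natAbs_natCast, Int.natAbs_natCast]
    have h4 := Nat.mul_le_mul hx1 hz2
    have h5 := Nat.mul_le_mul hz1 hx2
    rw [mul_comm (H z)] at h5
    omega

/-- row E -/
def GlobE : Prop := ∃ N0 : ℕ, ∀ r : ℕ, r.Prime → N0 < r → ∀ s t : ℤ, s ^ 2 + t ^ 2 = r →
  ∃ q : ℕ, q.Prime ∧ ∃ k : ℕ, q ^ (2 * k) ∣ (xc ((r : ℤ) • P0)).den ∧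
    ¬ ((q : ℤ) ^ k ∣ (r : ℤ) * (xc (s • P0) + xc (t • P0)).num)

lemma final_glob {κ C r ld ln lr l2 : ℝ} (hκ : 0 < κ) (h1 : κ * r ^ 2 - (C + 1) ≤ 2 * ld)
    (h2 : ld ≤ lr + ln) (h3 : ln ≤ l2 + (κ * r + 2 * C)) (hlr : lr ≤ r) (hl2 : l2 ≤ 1)
    (hC : 0 ≤ C) (hr1 : 1 ≤ r) (hr : 2 * (1 + κ) + 5 * C + 3 < κ * r) : False := by
  have h4 : κ * r ^ 2 ≤ 2 * (1 + κ) * r + (5 * C + 3) := by
    linarith only [h1, h2, h3, hlr, hl2]
  have h5 : (2 * (1 + κ) + 5 * C + 3) * r < κ * r * r :=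
    mul_lt_mul_of_pos_right hr (by linarith only [hr1])
  nlinarith only [h4, h5, mul_le_mul_of_nonneg_left hr1 (by linarith only [hC] : 0 ≤ 5 * C + 3)]

theorem globE : GlobE := by
  obtain ⟨κ, C0, hκ, hC0⟩ := all_growth
  set C : ℝ := max C0 0 with hCdef
  have hC : ∀ (n : ℤ) (x : ℚ), HasX (n • P0) x → |Real.log (H x) - κ * (n : ℝ) ^ 2| ≤ C :=
    fun n x hx => (hC0 n x hx).trans (le_max_left _ _)
  have hC1 : 0 ≤ C := le_max_right _ _
  obtain ⟨N0, hN0⟩ := exists_nat_gt ((2 * (1 + κ) + 5 * C + 3) / κ)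
  refine ⟨max N0 2, fun r hr hrN s t hst => ?_⟩
  have hrN0 : N0 < r := lt_of_le_of_lt (le_max_left _ _) hrN
  have hr2 : 2 < r := lt_of_le_of_lt (le_max_right _ _) hrN
  have hodd : Odd (r : ℤ) := by
    have := hr.odd_of_ne_two (by omega)
    exact_mod_cast this
  by_contra hcon
  push Not at hcon
  obtain ⟨x, c, d, h⟩ := oddForm_exists hodd
  have hx : xc ((r : ℤ) • P0) = x := xc_of_hasX h.hasX
  have hden := oddForm_den h
  rw [hx, hden] at hcon
  have hns : ∀ u : ℤ, u ^ 2 ≠ r := by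
    intro u hu
    have h1 : IsSquare (r : ℤ) := ⟨u, by rw [← hu]; ring⟩
    exact (Nat.prime_iff_prime_int.1 hr).not_isSquare h1
  have hs0 : s ≠ 0 := by
    rintro rfl
    exact hns t (by rw [← hst]; ring)
  have ht0 : t ≠ 0 := by
    rintro rfl
    exact hns s (by rw [← hst]; ring)
  have hXs := hasX_xc (zsmul_P0_ne_zero hs0)
  have hXt := hasX_xc (zsmul_P0_ne_zero ht0)
  have hne : xc (s • P0) + xc (t • P0) ≠ 0 := by
    rcases Int.even_or_odd s with hse | hso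
    · have hto : Odd t := by
        by_contra hcon2
        rw [Int.not_odd_iff_even] at hcon2
        have h1 : Even (r : ℤ) := by
          rw [← hst]
          exact (hse.pow_of_ne_zero (by norm_num)).add (hcon2.pow_of_ne_zero (by norm_num))
        exact (Int.not_even_iff_odd.2 hodd) h1
      obtain ⟨c', d', h'⟩ := oddForm_of_hasX hto hXt
      rw [add_comm]
      exact add_ne_zero_of_odd h' hXs
    · obtain ⟨c', d', h'⟩ := oddForm_of_hasX hso hXs
      exact add_ne_zero_of_odd h' hXt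
  set w := xc (s • P0) + xc (t • P0) with hw
  have hdvd : d ∣ ((r : ℤ) * w.num).natAbs := by
    rw [Nat.dvd_iff_prime_pow_dvd_dvd]
    intro q k hq hk
    have h1 : q ^ (2 * k) ∣ d ^ 2 := by
      rw [mul_comm 2 k, pow_mul]
      exact pow_dvd_pow_of_dvd hk 2
    have h2 := hcon q hq k h1
    rw [← Int.natCast_dvd]
    push_cast
    exact h2
  have hwn : w.num ≠ 0 := Rat.num_ne_zero.2 hne
  have hr0 : (0 : ℝ) < r := by exact_mod_cast hr.pos
  have hle : d ≤ r * w.num.natAbs := by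
    have h1 : ((r : ℤ) * w.num).natAbs = r * w.num.natAbs := by
      rw [Int.natAbs_mul, Int.natAbs_natCast]
    rw [h1] at hdvd
    exact Nat.le_of_dvd (Nat.mul_pos hr.pos (Int.natAbs_pos.2 hwn)) hdvd
  have hle2 : d ≤ r * (2 * (H (xc (s • P0)) * H (xc (t • P0)))) :=
    hle.trans (Nat.mul_le_mul_left _ (natAbs_num_add_le _ _))
  have hd : (0 : ℝ) < d := by exact_mod_cast h.d_pos
  have hHpos : ∀ z : ℚ, (0 : ℝ) < H z := by
    intro z
    have h1 : z.den ≤ H z := le_max_right _ _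
    have h2 : 0 < H z := lt_of_lt_of_le z.den_pos h1
    exact_mod_cast h2
  have l1 := log_d (fun n x _ hx => hC n x hx) h
  have l2 := hC s _ hXs
  have l3 := hC t _ hXt
  rw [abs_le] at l1 l2 l3
  have hle3 : (d : ℝ) ≤ r * (2 * (H (xc (s • P0)) * H (xc (t • P0)))) := by exact_mod_cast hle2
  have l4 := Real.log_le_log hd hle3
  have hHs := hHpos (xc (s • P0))
  have hHt := hHpos (xc (t • P0))
  rw [Real.log_mul hr0.ne' (by positivity)] at l4
  have l5 : Real.log (2 * ((H (xc (s • P0)) : ℝ) * H (xc (t • P0)))) =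
      Real.log 2 + (Real.log (H (xc (s • P0))) + Real.log (H (xc (t • P0)))) := by
    rw [Real.log_mul (by norm_num) (by positivity), Real.log_mul hHs.ne' hHt.ne']
  have hst' : (s : ℝ) ^ 2 + (t : ℝ) ^ 2 = r := by exact_mod_cast hst
  have hr1 : (1 : ℝ) ≤ r := by exact_mod_cast hr.one_lt.le
  have l6 := Real.log_le_sub_one_of_pos hr0
  have l7 := Real.log_two_lt_d9
  refine final_glob (κ := κ) (C := C) (r := (r : ℝ)) (ld := Real.log d)
    (ln := Real.log (2 * ((H (xc (s • P0)) : ℝ) * H (xc (t • P0))))) (lr := Real.log r)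
    (l2 := Real.log 2) hκ ?_ l4 ?_ ?_ ?_ hC1 hr1 ?_
  · have := l1.1
    push_cast at this
    linarith only [this]
  · rw [l5]
    have e : κ * (r : ℝ) = κ * (s : ℝ) ^ 2 + κ * (t : ℝ) ^ 2 := by rw [← hst']; ring
    linarith only [l2.2, l3.2, e]
  · linarith only [l6]
  · linarith only [l7]
  · rw [div_lt_iff₀ hκ] at hN0
    have : (N0 : ℝ) ≤ r := by exact_mod_cast hrN0.le
    nlinarith only [hN0, this, hκ]

/-- the local statement (rows N, A, B of part SP) -/
def RowBB : Prop := ∀ q r : ℕ, q.Prime → r.Prime → r ≠ 2 → Ord q r → 2 * (q + 1) < r ^ 2 →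
  r % 4 = 1 ∧ ∀ s t : ℤ, s ^ 2 + t ^ 2 = r → ∀ k : ℕ, q ^ (2 * k) ∣ (xc ((r : ℤ) • P0)).den →
    (q : ℤ) ^ k ∣ (r : ℤ) * (xc (s • P0) + xc (t • P0)).num

/-- output of part SP -/
def RowSP : Prop := ∃ N0 : ℕ, ∀ r : ℕ, r.Prime → N0 < r →
  ∃ q : ℕ, q.Prime ∧ Ord q r ∧ r ^ 2 ≤ 2 * (q + 1)

theorem ord_of_dvd_den {q r : ℕ} (hq : q.Prime) (hr : r.Prime)
    (h : q ∣ (xc ((r : ℤ) • P0)).den) : Ord q r := by
  obtain ⟨m, hm, hmr⟩ := rowO q hq r hr.pos (Or.inr h)
  rcases (Nat.dvd_prime hr).1 hmr with h1 | h1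
  · exfalso
    subst h1
    have h2 : Dv q 1 := (hm.2 1).2 (by norm_num)
    rcases h2 with h2 | h2
    · norm_num at h2
    · have h3 : xc ((1 : ℤ) • P0) = -1 := by
        rw [one_zsmul]
        exact xc_of_hasX ⟨1, by norm_num, rfl⟩
      rw [h3] at h2
      have h4 : ((-1 : ℚ)).den = 1 := by norm_num
      rw [h4] at h2
      exact hq.one_lt.ne' (Nat.dvd_one.1 h2)
  · rw [← h1]
    exact hm

theorem rowSP_of (hBB : RowBB) : RowSP := by
  obtain ⟨N1, h1⟩ := globE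
  obtain ⟨N2, h2⟩ := rowH
  refine ⟨max (max N1 N2) 2, fun r hr hrN => ?_⟩
  have hrN1 : N1 < r := by omega
  have hrN2 : N2 < r := by omega
  have hr2 : r ≠ 2 := by omega
  obtain ⟨q₀, hq₀, ho₀⟩ := h2 r 1 hr hr2 le_rfl (by rw [pow_one]; exact hrN2)
  rw [pow_one] at ho₀
  by_cases hb : r ^ 2 ≤ 2 * (q₀ + 1)
  · exact ⟨q₀, hq₀, ho₀, hb⟩
  push Not at hb
  obtain ⟨hr4, -⟩ := hBB q₀ r hq₀ hr hr2 ho₀ hb
  have : Fact r.Prime := ⟨hr⟩
  obtain ⟨a, b, hab⟩ := Nat.Prime.sq_add_sq (p := r) (by omega)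
  have hab' : (a : ℤ) ^ 2 + (b : ℤ) ^ 2 = r := by exact_mod_cast hab
  obtain ⟨q, hq, k, hk, hnk⟩ := h1 r hr hrN1 a b hab'
  have hk0 : k ≠ 0 := by
    rintro rfl
    exact hnk (by rw [pow_zero]; exact one_dvd _)
  have hqd : q ∣ (xc ((r : ℤ) • P0)).den := (dvd_pow_self q (by omega)).trans hk
  have ho := ord_of_dvd_den hq hr hqd
  refine ⟨q, hq, ho, ?_⟩
  by_contra hcon
  push Not at hcon
  exact hnk ((hBB q r hq hr hr2 ho hcon).2 a b hab' k hk)

end Vale.Agent.P027.R4.H815
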