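import Vale.Agent.P027.Bdl.B1

/-! For every prime `p`: if `x(V)` is not `p`-integral, then `x(V) / x(n V)` is congruent to
`n ^ 2` modulo `x(V) ^ (-2)`. -/

set_option linter.all false

namespace Vale.Agent.P027.R4.H815

open Vale.Agent.P345 Vale.Agent.P027 Vale.Agent.P027.HT

section

variable (p : ℕ) [hp : Fact p.Prime]

/-- the function `(1 - 2 w) / (1 + 2 w)^2` is close to one -/
lemma norm_quot_p {w : ℚ} (hw : padicNorm p w < 1) :
    1 + 2 * w ≠ 0 ∧ padicNorm p ((1 - 2 * w) / (1 + 2 * w) ^ 2 - 1) ≤ padicNorm p w := by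
  have n2 : padicNorm p 2 ≤ 1 := by exact_mod_cast padicNorm.of_int (p := p) 2
  have n6 : padicNorm p (-6) ≤ 1 := by exact_mod_cast padicNorm.of_int (p := p) (-6)
  have n4 : padicNorm p (-4) ≤ 1 := by exact_mod_cast padicNorm.of_int (p := p) (-4)
  have hw0 : 0 ≤ padicNorm p w := padicNorm.nonneg _
  have h1 : padicNorm p (2 * w) < 1 := by
    rw [padicNorm.mul]; nlinarith only [hw, n2, hw0]
  have h2 : padicNorm p (1 + 2 * w) = 1 := by
    rw [norm_add_left p (by rw [padicNorm.one]; exact h1), padicNorm.one]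
  have h3 : 1 + 2 * w ≠ 0 := by
    intro h; rw [h, padicNorm.zero] at h2; exact zero_ne_one h2
  refine ⟨h3, ?_⟩
  have e : (1 - 2 * w) / (1 + 2 * w) ^ 2 - 1 = w * (-6 + -4 * w) / (1 + 2 * w) ^ 2 := by
    field_simp; ring
  rw [e, padicNorm.div, sq, padicNorm.mul, padicNorm.mul, h2]
  have h4 : padicNorm p (-6 + -4 * w) ≤ 1 := by
    refine (padicNorm.nonarchimedean).trans (max_le n6 ?_)
    rw [padicNorm.mul]
    nlinarith only [n4, hw, padicNorm.nonneg (p := p) (-4)]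
  rw [mul_one, div_one]
  nlinarith only [hw0, h4]

/-- the bound for the second difference -/
lemma second_diff_p {a b s d B : ℚ} (hB : 1 < B) (hb : padicNorm p b = B) (ha : B ≤ padicNorm p a)
    (hs : s ≠ 0) (hd : d ≠ 0) (hab : a - b ≠ 0)
    (h1 : (s + d) * (a - b) ^ 2 = 2 * (a * b - 2) * (a + b))
    (h2 : s * d * (a - b) ^ 2 = (a * b + 2) ^ 2) :
    padicNorm p (s⁻¹ + d⁻¹ - 2 * a⁻¹ - 2 * b⁻¹) * B ^ 3 ≤ 1 := by
  have hB0 : 0 < B := by linarith only [hB]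
  have hb0 : b ≠ 0 := ne_zero_of_norm hB0 hb.ge
  have ha0 : a ≠ 0 := ne_zero_of_norm hB0 ha
  have n2 : padicNorm p 2 ≤ 1 := by exact_mod_cast padicNorm.of_int (p := p) 2
  have na : padicNorm p a⁻¹ ≤ B⁻¹ := by
    rw [← one_div, padicNorm.div, padicNorm.one, one_div]
    exact inv_anti₀ hB0 ha
  have nb : padicNorm p b⁻¹ = B⁻¹ := by
    rw [← one_div, padicNorm.div, padicNorm.one, one_div, hb]
  have hBi : B⁻¹ < 1 := inv_lt_one_of_one_lt₀ hB
  have hBi0 : 0 < B⁻¹ := by positivity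
  have na0 : 0 ≤ padicNorm p a⁻¹ := padicNorm.nonneg _
  have nw : padicNorm p (a⁻¹ * b⁻¹) ≤ B⁻¹ ^ 2 := by
    rw [padicNorm.mul, nb, sq]
    exact mul_le_mul_of_nonneg_right na hBi0.le
  have hw1 : padicNorm p (a⁻¹ * b⁻¹) < 1 := by nlinarith only [hBi, hBi0, nw]
  obtain ⟨hw, hq⟩ := norm_quot_p p hw1
  rw [rec_algebra ha0 hb0 hs hd hab h1 h2 hw, padicNorm.mul, padicNorm.mul]
  have nab : padicNorm p (a⁻¹ + b⁻¹) ≤ B⁻¹ :=
    (padicNorm.nonarchimedean).trans (max_le na nb.le)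
  have h20 : 0 ≤ padicNorm p 2 := padicNorm.nonneg _
  have hab0 : 0 ≤ padicNorm p (a⁻¹ + b⁻¹) := padicNorm.nonneg _
  have hq0 : 0 ≤ padicNorm p ((1 - 2 * (a⁻¹ * b⁻¹)) / (1 + 2 * (a⁻¹ * b⁻¹)) ^ 2 - 1) :=
    padicNorm.nonneg _
  calc padicNorm p 2 * padicNorm p (a⁻¹ + b⁻¹) *
        padicNorm p ((1 - 2 * (a⁻¹ * b⁻¹)) / (1 + 2 * (a⁻¹ * b⁻¹)) ^ 2 - 1) * B ^ 3
      ≤ (1 * B⁻¹) * B⁻¹ ^ 2 * B ^ 3 := by
        apply mul_le_mul_of_nonneg_right _ (by positivity)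
        apply mul_le_mul _ (hq.trans nw) hq0 (by positivity)
        apply mul_le_mul n2 nab hab0 (by norm_num)
    _ = 1 := by field_simp

theorem sq_congr_p {V : EC.Point} {x : ℚ} (hV : HasX V x) (h9 : 1 < padicNorm p x)
    (hne : ∀ m : ℕ, 1 ≤ m → m • V ≠ 0) {n : ℕ}
    (hn : 1 ≤ n) : ∃ x', HasX (n • V) x' ∧ padicNorm p x ≤ padicNorm p x' ∧
      padicNorm p (x / x' - (n : ℚ) ^ 2) * padicNorm p x ^ 2 ≤ 1 := by
  set B := padicNorm p x with hBdef
  have hB1 : 1 < B := h9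
  have hB0 : 0 < B := by linarith only [h9]
  have hx0 : x ≠ 0 := ne_zero_of_norm hB0 le_rfl
  have hmem : V ∈ GG p B hB1 := by rw [mem_GG_of_hasX p hB1 hV]
  have hex : ∀ m : ℕ, ∃ z : ℚ, (m = 0 → z = 0) ∧ (1 ≤ m → HasX (m • V) z) := by
    intro m
    rcases Nat.eq_zero_or_pos m with h | h
    · exact ⟨0, fun _ => rfl, fun h1 => by omega⟩
    · obtain ⟨z, hz⟩ := exists_hasX (hne m h)
      exact ⟨z, fun h1 => by omega, fun _ => hz⟩
  choose X hX0 hX using hex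
  have hX1 : X 1 = x := by
    have h1 := hX 1 le_rfl
    rw [one_nsmul] at h1
    exact h1.unique hV
  have hXB : ∀ m : ℕ, 1 ≤ m → B ≤ padicNorm p (X m) := by
    intro m hm
    have h1 : m • V ∈ GG p B hB1 := AddSubgroup.nsmul_mem _ hmem m
    exact (mem_GG_of_hasX p hB1 (hX m hm)).1 h1
  have hXne : ∀ m : ℕ, 1 ≤ m → X m ≠ 0 := fun m hm => ne_zero_of_norm hB0 (hXB m hm)
  -- second differences
  have hrec : ∀ m : ℕ, padicNorm p ((X (m + 2))⁻¹ + (X m)⁻¹ - 2 * (X (m + 1))⁻¹ - 2 * x⁻¹) * B ^ 3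
      ≤ 1 := by
    intro m
    rcases Nat.eq_zero_or_pos m with h | h
    · subst h
      have e2 : X 2 = (x ^ 2 + 2) ^ 2 / (4 * (x ^ 3 - 2 * x)) := by
        have h1 : HasX (V + V) (X 2) := by
          have h3 := hX 2 (by norm_num)
          rw [two_nsmul] at h3
          exact h3
        exact h1.unique (hasX_two_smul hV hx0)
      have hx3 := x_sq_sub_ne hx0
      have nb : padicNorm p x⁻¹ = B⁻¹ := by
        rw [← one_div, padicNorm.div, padicNorm.one, one_div]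
      have hBi : B⁻¹ < 1 := inv_lt_one_of_one_lt₀ hB1
      have hBi0 : 0 < B⁻¹ := by positivity
      have nw : padicNorm p (x⁻¹ * x⁻¹) = B⁻¹ ^ 2 := by
        rw [padicNorm.mul, nb, sq]
      obtain ⟨hw, hq⟩ := norm_quot_p p (w := x⁻¹ * x⁻¹) (by rw [nw]; nlinarith only [hBi, hBi0])
      have hx2 : x ^ 2 + 2 ≠ 0 := by (clear * - hx0; positivity)
      have e3 : (X 2)⁻¹ + (X 0)⁻¹ - 2 * (X 1)⁻¹ - 2 * x⁻¹ =
          2 * (2 * x⁻¹) * ((1 - 2 * (x⁻¹ * x⁻¹)) / (1 + 2 * (x⁻¹ * x⁻¹)) ^ 2 - 1) := by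
        rw [hX0 0 rfl, hX1, e2]
        have f1 : 1 - 2 * (x⁻¹ * x⁻¹) = (x ^ 2 - 2) / x ^ 2 := by (clear * - hx0; field_simp)
        have f2 : 1 + 2 * (x⁻¹ * x⁻¹) = (x ^ 2 + 2) / x ^ 2 := by field_simp
        rw [f1, f2]
        field_simp
        ring
      simp only [Nat.zero_add]
      rw [e3, padicNorm.mul, padicNorm.mul, padicNorm.mul, nb]
      have n2 : padicNorm p 2 ≤ 1 := by exact_mod_cast padicNorm.of_int (p := p) 2
      have h20 : 0 ≤ padicNorm p 2 := padicNorm.nonneg _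
      rw [nw] at hq
      have hq0 : 0 ≤ padicNorm p ((1 - 2 * (x⁻¹ * x⁻¹)) / (1 + 2 * (x⁻¹ * x⁻¹)) ^ 2 - 1) :=
        padicNorm.nonneg _
      calc padicNorm p 2 * (padicNorm p 2 * B⁻¹) *
            padicNorm p ((1 - 2 * (x⁻¹ * x⁻¹)) / (1 + 2 * (x⁻¹ * x⁻¹)) ^ 2 - 1) * B ^ 3
          ≤ (1 * (1 * B⁻¹)) * B⁻¹ ^ 2 * B ^ 3 := by
            apply mul_le_mul_of_nonneg_right _ (by positivity)
            apply mul_le_mul _ hq hq0 (by positivity)
            apply mul_le_mul n2 _ (by (clear * - h20 hBi0; positivity)) (by norm_num)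
            apply mul_le_mul_of_nonneg_right n2 hBi0.le
        _ = 1 := by field_simp
    · have hm1 := hX (m + 1) (by omega)
      have hab : X (m + 1) ≠ x := by
        intro h1
        rw [h1] at hm1
        rcases hm1.eq_or_neg hV with h2 | h2
        · apply hne m h
          rw [add_nsmul, one_nsmul] at h2
          exact add_eq_right.1 h2
        · apply hne (m + 2) (by omega)
          have : (m + 2) • V = (m + 1) • V + V := by rw [← succ_nsmul]
          rw [this, h2, neg_add_cancel]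
      obtain ⟨s, d, hs, hd, h1, h2⟩ := hasX_add_sub hm1 hV hab
      have es : s = X (m + 2) := by
        have : (m + 1) • V + V = (m + 2) • V := by rw [← succ_nsmul]
        rw [this] at hs
        exact hs.unique (hX (m + 2) (by omega))
      have ed : d = X m := by
        have : (m + 1) • V - V = m • V := by rw [succ_nsmul, add_sub_cancel_right]
        rw [this] at hd
        exact hd.unique (hX m h)
      subst es ed
      exact second_diff_p p hB1 rfl (hXB (m + 1) (by omega)) (hXne _ (by omega)) (hXne _ h)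
        (sub_ne_zero.2 hab) h1 h2
  -- the estimate for `1 / x(mV) - m ^ 2 / x`
  have n2 : padicNorm p 2 ≤ 1 := by exact_mod_cast padicNorm.of_int (p := p) 2
  have hB3 : (0 : ℚ) < B ^ 3 := by positivity
  have hest : ∀ m : ℕ, padicNorm p ((X m)⁻¹ - (m : ℚ) ^ 2 * x⁻¹) * B ^ 3 ≤ 1 ∧
      padicNorm p ((X (m + 1))⁻¹ - ((m + 1 : ℕ) : ℚ) ^ 2 * x⁻¹) * B ^ 3 ≤ 1 := by
    intro m
    induction m with
    | zero =>
      constructor
      · rw [hX0 0 rfl]
        simp only [inv_zero, CharP.cast_eq_zero, ne_eq, OfNat.ofNat_ne_zero, not_false_eq_true,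
          zero_pow, zero_mul, sub_self, padicNorm.zero, zero_le_one]
      · rw [Nat.zero_add, hX1]
        simp only [Nat.cast_one, one_pow, one_mul, sub_self, padicNorm.zero, zero_mul, zero_le_one]
    | succ m ih =>
      refine ⟨ih.2, ?_⟩
      obtain ⟨i1, i2⟩ := ih
      have hr := hrec m
      rw [← le_div_iff₀ hB3] at i1 i2 hr ⊢
      have e : (X (m + 1 + 1))⁻¹ - ((m + 1 + 1 : ℕ) : ℚ) ^ 2 * x⁻¹ =
          (((X (m + 2))⁻¹ + (X m)⁻¹ - 2 * (X (m + 1))⁻¹ - 2 * x⁻¹) +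
            2 * ((X (m + 1))⁻¹ - ((m + 1 : ℕ) : ℚ) ^ 2 * x⁻¹)) -
            ((X m)⁻¹ - (m : ℚ) ^ 2 * x⁻¹) := by
        push_cast; ring
      rw [e]
      refine (padicNorm.sub).trans (max_le ((padicNorm.nonarchimedean).trans (max_le hr ?_)) i1)
      rw [padicNorm.mul]
      calc _ ≤ 1 * padicNorm p ((X (m + 1))⁻¹ - ((m + 1 : ℕ) : ℚ) ^ 2 * x⁻¹) :=
            mul_le_mul_of_nonneg_right n2 (padicNorm.nonneg _)
        _ ≤ _ := by rw [one_mul]; exact i2
  refine ⟨X n, hX n hn, hXB n hn, ?_⟩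
  have h1 := (hest n).1
  have e : x / X n - (n : ℚ) ^ 2 = x * ((X n)⁻¹ - (n : ℚ) ^ 2 * x⁻¹) := by
    have := hXne n hn
    (clear * - this hx0; field_simp)
  rw [e, padicNorm.mul]
  calc _ = padicNorm p ((X n)⁻¹ - (n : ℚ) ^ 2 * x⁻¹) * B ^ 3 := by rw [← hBdef]; ring
    _ ≤ 1 := h1

end

end Vale.Agent.P027.R4.H815
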