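import Vale.Agent.P027.R4.H815.Ker

/-! For all but finitely many odd prime powers `m` there is a prime `q` for which `m` is the order
of `P0` modulo `q`. -/

set_option linter.all false

namespace Vale.Agent.P027.R4.H815

open Vale.Agent.P345 Vale.Agent.P027 Vale.Agent.P027.HT

lemma nsmul_P0_ne {m : ℤ} (hm : m ≠ 0) {n : ℕ} (hn : 1 ≤ n) : n • (m • P0) ≠ 0 := by
  rw [← natCast_zsmul, ← mul_zsmul]
  exact zsmul_P0_ne_zero (mul_ne_zero (by exact_mod_cast (by omega : n ≠ 0)) hm)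

/-- a non-integral first coordinate has norm at least `q ^ 2` -/
lemma sq_le_norm (q : ℕ) [hq : Fact q.Prime] {V : EC.Point} {x : ℚ} (hV : HasX V x)
    (hx : 1 < padicNorm q x) : (q : ℚ) ^ 2 ≤ padicNorm q x := by
  have hev := even_val q hV hx le_rfl
  have hx0 : x ≠ 0 := ne_zero_of_norm (by linarith only [hx]) le_rfl
  have hq1 : (1 : ℚ) < q := by exact_mod_cast hq.out.one_lt
  rw [norm_eq_zpow q hx0] at hx ⊢
  have h1 : (0 : ℤ) < -padicValRat q x := by
    by_contra hcon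
    push Not at hcon
    have := zpow_le_one_of_nonpos₀ hq1.le hcon
    linarith only [this, hx]
  have h2 : ((q : ℚ) ^ 2) = (q : ℚ) ^ (2 : ℤ) := by norm_cast
  rw [h2]
  apply zpow_le_zpow_right₀ hq1.le
  rw [Int.even_iff] at hev
  omega

lemma norm_prime_ge (q : ℕ) [hq : Fact q.Prime] {r : ℕ} (hr : r.Prime) :
    (q : ℚ)⁻¹ ≤ padicNorm q r := by
  have hq1 : (1 : ℚ) < q := by exact_mod_cast hq.out.one_lt
  by_cases h : q = r
  · subst h
    rw [padicNorm.padicNorm_p hq.out.one_lt]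
  · have : Fact r.Prime := ⟨hr⟩
    rw [padicNorm.padicNorm_of_prime_of_ne h]
    exact inv_le_one_of_one_le₀ hq1.le

/-- in the kernel of reduction modulo `q`, multiplication by a prime `r` divides the size of the
first coordinate exactly by `r ^ 2` -/
theorem norm_smul_prime (q : ℕ) [hq : Fact q.Prime] {V : EC.Point} {x x' : ℚ} (hV : HasX V x)
    (hx : 1 < padicNorm q x) (hne : ∀ m : ℕ, 1 ≤ m → m • V ≠ 0) {r : ℕ} (hr : r.Prime)
    (h' : HasX (r • V) x') : padicNorm q x' * padicNorm q r ^ 2 = padicNorm q x := by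
  obtain ⟨z, hz, hzx, hc⟩ := sq_congr_p q hV hx hne hr.one_lt.le
  obtain rfl := h'.unique hz
  have hB0 : 0 < padicNorm q x := by linarith only [hx]
  have hx'0 : x' ≠ 0 := ne_zero_of_norm hB0 hzx
  have hq1 : (1 : ℚ) < q := by exact_mod_cast hq.out.one_lt
  have hq0 : (0 : ℚ) < q := by linarith only [hq1]
  have hge := sq_le_norm q hV hx
  have hr1 := norm_prime_ge q hr
  -- the error is smaller than `|r ^ 2|`
  have hlt : padicNorm q (x / x' - (r : ℚ) ^ 2) < padicNorm q ((r : ℚ) ^ 2) := by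
    by_contra hcon
    push Not at hcon
    have e1 : padicNorm q ((r : ℚ) ^ 2) = padicNorm q r ^ 2 := by
      rw [sq, padicNorm.mul, sq]
    rw [e1] at hcon
    have h1 : ((q : ℚ)⁻¹) ^ 2 ≤ padicNorm q r ^ 2 :=
      pow_le_pow_left₀ (by positivity) hr1 2
    have h2 : ((q : ℚ)⁻¹) ^ 2 * ((q : ℚ) ^ 2) ^ 2 ≤
        padicNorm q (x / x' - (r : ℚ) ^ 2) * padicNorm q x ^ 2 := by
      apply mul_le_mul (h1.trans hcon) _ (by positivity) (padicNorm.nonneg _)
      exact pow_le_pow_left₀ (by positivity) hge 2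
    have h3 : ((q : ℚ)⁻¹) ^ 2 * ((q : ℚ) ^ 2) ^ 2 = (q : ℚ) ^ 2 := by
      field_simp
    rw [h3] at h2
    have h4 : (1 : ℚ) < (q : ℚ) ^ 2 := one_lt_pow₀ hq1 (by norm_num)
    linarith only [h2, h4, hc]
  have h5 : padicNorm q (x / x') = padicNorm q ((r : ℚ) ^ 2) := by
    have e : x / x' = (r : ℚ) ^ 2 + (x / x' - (r : ℚ) ^ 2) := by ring
    rw [e]
    exact norm_add_left q hlt
  rw [padicNorm.div, sq ((r : ℚ)), padicNorm.mul, ← sq] at h5
  rw [div_eq_iff (padicNorm.nonzero hx'0)] at h5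
  rw [h5]; ring

/-- norm of the coordinate of an odd multiple -/
lemma norm_oddForm (q : ℕ) [hq : Fact q.Prime] {n : ℤ} {x : ℚ} {c d : ℕ} (h : OddForm n x c d)
    (hd : q ∣ d) : padicNorm q x * padicNorm q d ^ 2 = 1 := by
  have hd0 : (d : ℚ) ≠ 0 := by exact_mod_cast h.d_pos.ne'
  have hc : ¬ q ∣ c := by
    intro hc
    have := Nat.dvd_gcd hc hd
    rw [h.cop] at this
    exact hq.out.one_lt.ne' (Nat.dvd_one.1 this)
  have h1 : padicNorm q c = 1 := by
    exact_mod_cast (padicNorm.nat_eq_one_iff (p := q) c).2 hc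
  rw [h.eq, padicNorm.neg, padicNorm.div, sq, sq, padicNorm.mul, padicNorm.mul, h1]
  have := padicNorm.nonzero (p := q) hd0
  field_simp

lemma one_lt_norm_iff (q : ℕ) [hq : Fact q.Prime] {n : ℤ} {x : ℚ} {c d : ℕ} (h : OddForm n x c d) :
    1 < padicNorm q x ↔ q ∣ d := by
  have hd0 : (d : ℚ) ≠ 0 := by exact_mod_cast h.d_pos.ne'
  have hdn := padicNorm.nonzero (p := q) hd0
  have hdn0 : 0 < padicNorm q (d : ℚ) := lt_of_le_of_ne (padicNorm.nonneg _) hdn.symm
  constructor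
  · intro h1
    by_contra hcon
    have h2 : padicNorm q (d : ℚ) = 1 := (padicNorm.nat_eq_one_iff (p := q) d).2 hcon
    have h3 : padicNorm q (c : ℚ) ≤ 1 := padicNorm.of_nat (p := q) c
    rw [h.eq, padicNorm.neg, padicNorm.div, sq, sq, padicNorm.mul, padicNorm.mul, h2] at h1
    have h4 : 0 ≤ padicNorm q (c : ℚ) := padicNorm.nonneg _
    rw [mul_one, div_one] at h1
    nlinarith only [h1, h3, h4]
  · intro h1
    have h2 := norm_oddForm q h h1
    have h3 : padicNorm q (d : ℚ) < 1 := (padicNorm.nat_lt_one_iff (p := q) d).2 h1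
    by_contra hcon
    push Not at hcon
    have h4 : 0 ≤ padicNorm q x := padicNorm.nonneg _
    nlinarith only [h2, h3, hcon, h4, hdn0, mul_le_mul_of_nonneg_right hcon (sq_nonneg (padicNorm q (d : ℚ)))]

/-- denominators grow by at most the factor `r` when no new prime appears -/
theorem dvd_of_no_new {r : ℕ} (hr : r.Prime) {n : ℤ} {x x' : ℚ} {c d c' d' : ℕ}
    (h : OddForm n x c d) (h' : OddForm (r * n) x' c' d')
    (hno : ∀ q : ℕ, q.Prime → q ∣ d' → q ∣ d) : d' ∣ r * d := by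
  have hn : n ≠ 0 := by
    have := h.odd
    rintro rfl
    simp at this
  rw [Nat.dvd_iff_prime_pow_dvd_dvd]
  intro q k hq hk
  rcases Nat.eq_zero_or_pos k with hk0 | hk0
  · subst hk0; simp
  have : Fact q.Prime := ⟨hq⟩
  have hqd' : q ∣ d' := (dvd_pow_self q hk0.ne').trans hk
  have hqd := hno q hq hqd'
  have h1 := (one_lt_norm_iff q h).2 hqd
  have hX' : HasX (r • (n • P0)) x' := by
    have := h'.hasX
    rw [mul_zsmul, natCast_zsmul] at this
    exact this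
  have h2 := norm_smul_prime q h.hasX h1 (fun m hm => nsmul_P0_ne hn hm) hr hX'
  have h3 := norm_oddForm q h hqd
  have h4 := norm_oddForm q h' hqd'
  have hd0 : (d : ℚ) ≠ 0 := by exact_mod_cast h.d_pos.ne'
  have hd0' : (d' : ℚ) ≠ 0 := by exact_mod_cast h'.d_pos.ne'
  have n1 : 0 < padicNorm q (d : ℚ) :=
    lt_of_le_of_ne (padicNorm.nonneg _) (padicNorm.nonzero (p := q) hd0).symm
  have n2 : 0 < padicNorm q (d' : ℚ) :=
    lt_of_le_of_ne (padicNorm.nonneg _) (padicNorm.nonzero (p := q) hd0').symm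
  have hr0 : (r : ℚ) ≠ 0 := by exact_mod_cast hr.pos.ne'
  have n3 : 0 < padicNorm q (r : ℚ) :=
    lt_of_le_of_ne (padicNorm.nonneg _) (padicNorm.nonzero (p := q) hr0).symm
  have h5 : (padicNorm q (r : ℚ) * padicNorm q (d : ℚ)) ^ 2 = padicNorm q (d' : ℚ) ^ 2 := by
    have e1 : (padicNorm q (r : ℚ) * padicNorm q (d : ℚ)) ^ 2 =
        (padicNorm q x' * padicNorm q (d' : ℚ) ^ 2) *
          (padicNorm q (r : ℚ) * padicNorm q (d : ℚ)) ^ 2 := by rw [h4, one_mul]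
    rw [e1]
    calc _ = ((padicNorm q x' * padicNorm q (r : ℚ) ^ 2) * padicNorm q (d : ℚ) ^ 2) *
          padicNorm q (d' : ℚ) ^ 2 := by ring
      _ = _ := by rw [h2, h3, one_mul]
  have h6 : padicNorm q (r : ℚ) * padicNorm q (d : ℚ) = padicNorm q (d' : ℚ) :=
    (sq_eq_sq₀ (by positivity) n2.le).1 h5
  have h7 : padicNorm q ((r * d : ℕ) : ℚ) = padicNorm q (d' : ℚ) := by
    push_cast
    rw [padicNorm.mul, h6]
  have h8 : ((q ^ k : ℕ) : ℤ) ∣ (d' : ℤ) := by exact_mod_cast hk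
  rw [padicNorm.dvd_iff_norm_le] at h8
  have h9 : ((q ^ k : ℕ) : ℤ) ∣ ((r * d : ℕ) : ℤ) := by
    rw [padicNorm.dvd_iff_norm_le]
    have e : (((r * d : ℕ) : ℤ) : ℚ) = ((r * d : ℕ) : ℚ) := by push_cast; ring
    rw [e, h7]
    exact_mod_cast h8
  exact_mod_cast h9

lemma final_ineq {κ C m s L lr a b : ℝ} (hκ : 0 < κ) (h1 : κ * m ^ 2 - (C + 1) ≤ a)
    (h2 : b ≤ κ * s ^ 2 + (C + 1)) (h3 : a ≤ 2 * lr + b) (hs : 9 * s ^ 2 ≤ m ^ 2)
    (hlr : lr ≤ m) (hm1 : 1 ≤ m) (hC : 0 ≤ C) (hm : 9 * (C + 2) < κ * m) : False := by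
  have h4 : κ * m ^ 2 - κ * s ^ 2 ≤ 2 * m + 2 * (C + 1) := by linarith only [h1, h2, h3, hlr]
  have h5 : κ * (9 * s ^ 2) ≤ κ * m ^ 2 := mul_le_mul_of_nonneg_left hs hκ.le
  have h6 : 8 * (κ * m ^ 2) ≤ 9 * (2 * m + 2 * (C + 1)) := by linarith only [h4, h5]
  have h7 : 9 * (C + 2) * m < κ * m ^ 2 := by
    have := mul_lt_mul_of_pos_right hm (by linarith only [hm1] : 0 < m)
    calc _ < κ * m * m := this
      _ = _ := by ring
  have h8 : (C + 2) * 1 ≤ (C + 2) * m := mul_le_mul_of_nonneg_left hm1 (by linarith only [hC])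
  nlinarith only [h6, h7, h8, hC, hm1, mul_nonneg hC (by linarith only [hm1] : (0:ℝ) ≤ m)]

/-- for all but finitely many odd prime powers a new prime appears -/
theorem exists_new : ∃ N0 : ℕ, ∀ r e : ℕ, r.Prime → r ≠ 2 → N0 < r ^ (e + 1) →
    ∀ (x x' : ℚ) (c d c' d' : ℕ), OddForm ((r : ℤ) ^ e) x c d → OddForm ((r : ℤ) ^ (e + 1)) x' c' d' →
    ∃ q : ℕ, q.Prime ∧ q ∣ d' ∧ ¬ q ∣ d := by
  obtain ⟨κ, C0, hκ, hC0⟩ := odd_growth
  set C : ℝ := max C0 0 with hCdef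
  have hC : ∀ (n : ℤ) (x : ℚ), Odd n → HasX (n • P0) x → |Real.log (H x) - κ * (n : ℝ) ^ 2| ≤ C :=
    fun n x hn hx => (hC0 n x hn hx).trans (le_max_left _ _)
  have hC1 : 0 ≤ C := le_max_right _ _
  obtain ⟨N0, hN0⟩ := exists_nat_gt (9 * (C + 2) / κ)
  refine ⟨N0, fun r e hr hr2 hN x x' c d c' d' h h' => ?_⟩
  by_contra hcon
  push Not at hcon
  have hr' : (r : ℤ) ^ (e + 1) = (r : ℤ) * (r : ℤ) ^ e := by ring
  have h'' : OddForm ((r : ℤ) * (r : ℤ) ^ e) x' c' d' := by rw [← hr']; exact h'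
  have hdvd := dvd_of_no_new hr h h'' hcon
  have hle := Nat.le_of_dvd (Nat.mul_pos hr.pos h.d_pos) hdvd
  have l1 := log_d hC h
  have l2 := log_d hC h'
  rw [abs_le] at l1 l2
  have hd : (0 : ℝ) < d := by exact_mod_cast h.d_pos
  have hd' : (0 : ℝ) < d' := by exact_mod_cast h'.d_pos
  have hr0 : (0 : ℝ) < r := by exact_mod_cast hr.pos
  have l3 : Real.log d' ≤ Real.log r + Real.log d := by
    rw [← Real.log_mul hr0.ne' hd.ne']
    apply Real.log_le_log hd'
    exact_mod_cast hle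
  have hr3 : 3 ≤ r := by
    have := hr.two_le
    omega
  have hr3' : (3 : ℝ) ≤ r := by exact_mod_cast hr3
  have hm : (N0 : ℝ) < (r : ℝ) ^ (e + 1) := by exact_mod_cast hN
  have hre : (1 : ℝ) ≤ (r : ℝ) ^ e := one_le_pow₀ (by linarith only [hr3'])
  have hre0 : (0 : ℝ) < (r : ℝ) ^ e := by positivity
  have hmr : (r : ℝ) ^ (e + 1) = r * (r : ℝ) ^ e := by ring
  have hrm : (r : ℝ) ≤ (r : ℝ) ^ (e + 1) := by
    rw [hmr]; nlinarith only [hre, hr0]
  have hlr : Real.log r ≤ (r : ℝ) ^ (e + 1) := by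
    have := Real.log_le_sub_one_of_pos hr0
    linarith only [this, hrm]
  refine final_ineq (κ := κ) (C := C) (m := (r : ℝ) ^ (e + 1)) (s := (r : ℝ) ^ e)
    (L := 0) (lr := Real.log r) (a := 2 * Real.log d') (b := 2 * Real.log d) hκ ?_ ?_ ?_ ?_ hlr ?_
    hC1 ?_
  · have := l2.1
    push_cast at this
    linarith only [this]
  · have := l1.2
    push_cast at this
    linarith only [this]
  · linarith only [l3]
  · rw [hmr]
    have h9 : (9 : ℝ) ≤ r ^ 2 := by nlinarith only [hr3']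
    calc 9 * ((r : ℝ) ^ e) ^ 2 ≤ (r : ℝ) ^ 2 * ((r : ℝ) ^ e) ^ 2 :=
          mul_le_mul_of_nonneg_right h9 (sq_nonneg _)
      _ = _ := by ring
  · rw [hmr]; nlinarith only [hre, hr3']
  · rw [div_lt_iff₀ hκ] at hN0
    nlinarith only [hN0, hm, hκ]

/-- the order of `P0` modulo `q`: membership in the kernel of reduction is divisibility -/
theorem exists_ord (q : ℕ) (hq : q.Prime) : ∃ M : ℕ, ∀ k : ℤ,
    (k = 0 ∨ ∃ x, HasX (k • P0) x ∧ padicValRat q x < 0) ↔ (M : ℤ) ∣ k := by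
  obtain ⟨G, hG⟩ := exists_group q hq
  obtain ⟨M, hM⟩ := Int.subgroup_cyclic (G.comap (zmultiplesHom _ P0))
  refine ⟨M.natAbs, fun k => ?_⟩
  have h1 : k • P0 ∈ G ↔ k ∈ G.comap (zmultiplesHom _ P0) := by
    rw [AddSubgroup.mem_comap, zmultiplesHom_apply]
  rw [Int.natAbs_dvd, ← Int.mem_zmultiples_iff, AddSubgroup.zmultiples_eq_closure, ← hM, ← h1]
  constructor
  · rintro (h | ⟨x, hx, hv⟩)
    · subst h; rw [zero_zsmul]; exact G.zero_mem
    · exact (hG _ _ hx).2 hv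
  · intro h
    by_cases hk : k = 0
    · exact Or.inl hk
    · obtain ⟨x, hx⟩ := exists_hasX (zsmul_P0_ne_zero hk)
      exact Or.inr ⟨x, hx, (hG _ _ hx).1 h⟩

/-- **Primitive primes for odd prime powers.**  For all but finitely many odd prime powers `m`
there is a prime `q` such that `k P0` lies in the kernel of reduction modulo `q` exactly when
`m` divides `k`. -/
theorem exists_prim : ∃ N0 : ℕ, ∀ r e : ℕ, r.Prime → r ≠ 2 → 0 < e → N0 < r ^ e →
    ∃ q : ℕ, q.Prime ∧ ∀ k : ℤ,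
      (k = 0 ∨ ∃ x, HasX (k • P0) x ∧ padicValRat q x < 0) ↔ ((r ^ e : ℕ) : ℤ) ∣ k := by
  obtain ⟨N0, hN0⟩ := exists_new
  refine ⟨N0, fun r e hr hr2 he hN => ?_⟩
  obtain ⟨f, rfl⟩ : ∃ f, e = f + 1 := ⟨e - 1, by omega⟩
  have hodd : Odd (r : ℤ) := by
    have := hr.odd_of_ne_two hr2
    exact_mod_cast this
  obtain ⟨x, c, d, h⟩ := oddForm_exists (hodd.pow (n := f))
  obtain ⟨x', c', d', h'⟩ := oddForm_exists (hodd.pow (n := f + 1))
  obtain ⟨q, hq, hqd', hqd⟩ := hN0 r f hr hr2 hN x x' c d c' d' h h'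
  have : Fact q.Prime := ⟨hq⟩
  refine ⟨q, hq, ?_⟩
  obtain ⟨M, hM⟩ := exists_ord q hq
  -- the norm criterion
  have hcrit : ∀ (n : ℤ) (z : ℚ) (a b : ℕ), OddForm n z a b → (q ∣ b ↔ (M : ℤ) ∣ n) := by
    intro n z a b hz
    have hz0 : z ≠ 0 := by
      rw [hz.eq]
      have h1 : (a : ℚ) ≠ 0 := by exact_mod_cast hz.c_pos.ne'
      have h2 : (b : ℚ) ≠ 0 := by exact_mod_cast hz.d_pos.ne'
      rw [neg_ne_zero]
      positivity
    have hn0 : n ≠ 0 := by
      have := hz.odd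
      rintro rfl
      simp at this
    rw [← one_lt_norm_iff q hz, ← hM]
    have hq1 : (1 : ℚ) < q := by exact_mod_cast hq.one_lt
    have key : 1 < padicNorm q z ↔ padicValRat q z < 0 := by
      rw [norm_eq_zpow q hz0]
      constructor
      · intro h1
        by_contra hcon
        push Not at hcon
        have := zpow_le_one_of_nonpos₀ hq1.le (by omega : -padicValRat q z ≤ 0)
        linarith only [this, h1]
      · intro h1
        exact one_lt_zpow₀ hq1 (by omega)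
    rw [key]
    constructor
    · intro h1
      exact Or.inr ⟨z, hz.hasX, h1⟩
    · rintro (h1 | ⟨w, hw, hv⟩)
      · exact absurd h1 hn0
      · rw [hz.hasX.unique hw]; exact hv
  have h1 : (M : ℤ) ∣ ((r ^ (f + 1) : ℕ) : ℤ) := by
    have := (hcrit _ _ _ _ h').1 hqd'
    push_cast
    exact this
  have h2 : ¬ (M : ℤ) ∣ ((r ^ f : ℕ) : ℤ) := by
    intro hcon
    apply hqd
    apply (hcrit _ _ _ _ h).2
    push_cast at hcon
    exact hcon
  rw [Int.natCast_dvd_natCast] at h1 h2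
  have hMe : M = r ^ (f + 1) := by
    obtain ⟨j, hj, rfl⟩ := (Nat.dvd_prime_pow hr).1 h1
    rcases Nat.lt_or_ge j (f + 1) with h3 | h3
    · exact absurd (pow_dvd_pow r (by omega : j ≤ f)) h2
    · congr 1; omega
  intro k
  rw [hM k, hMe]

end Vale.Agent.P027.R4.H815
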