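import Vale.Agent.P027.R4.H815.Prim
import Vale.Agent.P027.R4.H788.Defs

/-! Row H of the natural density-one theorem, and the orders of `P0` (row O). -/

set_option linter.all false

namespace Vale.Agent.P027.R4.H815

open Vale.Agent.P345 Vale.Agent.P027 Vale.Agent.P027.HT Vale.Agent.P027.D1

/-- a prime divides the denominator exactly when the valuation is negative -/
lemma dvd_den_iff {q : ℕ} (hq : q.Prime) (x : ℚ) : q ∣ x.den ↔ padicValRat q x < 0 := by
  have : Fact q.Prime := ⟨hq⟩
  rw [padicValRat_def]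
  by_cases h : q ∣ x.den
  · have h1 : ¬ q ∣ x.num.natAbs := by
      intro h2
      have := Nat.dvd_gcd h2 h
      rw [x.reduced] at this
      exact hq.one_lt.ne' (Nat.dvd_one.1 this)
    have h2 : padicValInt q x.num = 0 := by
      rw [padicValInt]
      exact padicValNat.eq_zero_of_not_dvd h1
    have h3 : 1 ≤ padicValNat q x.den := one_le_padicValNat_of_dvd x.den_nz h
    simp only [h, true_iff]
    rw [h2]
    omega
  · have h3 : padicValNat q x.den = 0 := padicValNat.eq_zero_of_not_dvd h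
    simp only [h, false_iff]
    rw [h3]
    omega

lemma dv_iff {q : ℕ} (hq : q.Prime) (k : ℤ) :
    Dv q k ↔ (k = 0 ∨ ∃ x, HasX (k • P0) x ∧ padicValRat q x < 0) := by
  unfold Dv
  by_cases hk : k = 0
  · simp [hk]
  · have hX := hasX_xc (zsmul_P0_ne_zero hk)
    rw [dvd_den_iff hq]
    constructor
    · rintro (h | h)
      · exact Or.inl h
      · exact Or.inr ⟨_, hX, h⟩
    · rintro (h | ⟨x, hx, h⟩)
      · exact Or.inl h
      · right
        rw [hX.unique hx]
        exact h

theorem rowH : RowH := by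
  obtain ⟨B, hB⟩ := exists_prim
  refine ⟨B, fun r e hr hr2 he hN => ?_⟩
  obtain ⟨q, hq, h⟩ := hB r e hr hr2 he hN
  refine ⟨q, hq, Nat.pow_pos hr.pos, fun n => ?_⟩
  rw [dv_iff hq, h n]

theorem rowO : RowO := by
  intro q hq n hn hd
  obtain ⟨M, hM⟩ := exists_ord q hq
  have h1 : (M : ℤ) ∣ n := (hM n).1 ((dv_iff hq n).1 hd)
  rw [Int.natCast_dvd_natCast] at h1
  refine ⟨M, ⟨Nat.pos_of_dvd_of_pos h1 hn, fun k => ?_⟩, h1⟩
  rw [dv_iff hq, hM]

end Vale.Agent.P027.R4.H815
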