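import Vale.Agent.P027.R4.H815.Prim
import Vale.Agent.P027.R4.H788.Defs

/-! Valuations of the coordinates of the even multiples of `P0` at two. -/

set_option linter.all false

namespace Vale.Agent.P027.R4.H815

open Vale.Agent.P345 Vale.Agent.P027 Vale.Agent.P027.HT Vale.Agent.P027.D1

/-- in the kernel of reduction modulo `q`, multiplication by `n` divides the size of the first
coordinate exactly by `n ^ 2` -/
theorem norm_smul (q : ℕ) [hq : Fact q.Prime] (n : ℕ) : ∀ {V : EC.Point} {x x' : ℚ}, HasX V x →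
    1 < padicNorm q x → (∀ m : ℕ, 1 ≤ m → m • V ≠ 0) → 1 ≤ n → HasX (n • V) x' →
    padicNorm q x' * padicNorm q n ^ 2 = padicNorm q x := by
  induction n using Nat.recOnMul with
  | zero => intro V x x' _ _ _ h _; omega
  | one =>
    intro V x x' hV _ _ _ h'
    rw [one_nsmul] at h'
    rw [h'.unique hV]
    simp
  | prime r hr =>
    intro V x x' hV hx hne _ h'
    exact norm_smul_prime q hV hx hne hr h'
  | mul a b iha ihb =>
    intro V x x' hV hx hne hn h'
    have ha : 1 ≤ a := Nat.pos_of_ne_zero (by rintro rfl; simp at hn)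
    have hb : 1 ≤ b := Nat.pos_of_ne_zero (by rintro rfl; simp at hn)
    obtain ⟨z, hz⟩ := exists_hasX (hne a ha)
    have h1 := iha hV hx hne ha hz
    have hz1 : 1 < padicNorm q z := by
      obtain ⟨w, hw, hle, -⟩ := sq_congr_p q hV hx hne ha
      rw [hz.unique hw]
      linarith only [hle, hx]
    have hne' : ∀ m : ℕ, 1 ≤ m → m • (a • V) ≠ 0 := by
      intro m hm
      rw [← mul_nsmul']
      exact hne _ (Nat.mul_pos hm ha)
    have h2 := ihb hz hz1 hne' hb (by rw [← mul_nsmul', mul_comm]; exact h')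
    push_cast
    rw [padicNorm.mul, ← h1, ← h2]
    ring

lemma norm_nine_four : padicNorm 2 (9 / 4) = 4 := by
  have e : padicValRat 2 (9 / 4) = -2 := by
    rw [padicValRat.div (by norm_num) (by norm_num), v24]
    have : padicValRat 2 (9 : ℚ) = 0 := by
      exact_mod_cast vnat_zero (p := 2) (n := 9) (by norm_num)
    rw [this]; norm_num
  rw [norm_eq_zpow 2 (by norm_num), e]
  norm_num

/-- the two-adic valuation of the coordinate of an even multiple -/
theorem val_even {N : ℤ} (hN : N ≠ 0) {x : ℚ} (hx : HasX ((2 * N) • P0) x) :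
    x ≠ 0 ∧ padicValRat 2 x = -2 - 2 * (padicValInt 2 N : ℤ) := by
  have : Fact (Nat.Prime 2) := ⟨Nat.prime_two⟩
  have hX : HasX (N.natAbs • ((2 : ℤ) • P0)) x := by
    rcases Int.natAbs_eq N with h | h
    · rw [← natCast_zsmul, ← mul_zsmul, mul_comm, ← h]; exact hx
    · rw [← natCast_zsmul, ← mul_zsmul]
      have h1 := hx.neg
      rw [← neg_zsmul] at h1
      have e : -(2 * N) = (2 : ℤ) * (N.natAbs : ℤ) := by omega
      rw [e, mul_comm] at h1
      rw [mul_comm]
      rw [mul_comm] at h1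
      exact h1
  have h1 := norm_smul 2 N.natAbs hasX_two_P0 (by rw [norm_nine_four]; norm_num)
    (fun m hm => nsmul_P0_ne (by norm_num) hm) (Int.natAbs_pos.2 hN) hX
  rw [norm_nine_four] at h1
  have hx0 : x ≠ 0 := by
    rintro rfl
    rw [padicNorm.zero, zero_mul] at h1
    norm_num at h1
  refine ⟨hx0, ?_⟩
  have hN0 : ((N.natAbs : ℕ) : ℚ) ≠ 0 := by exact_mod_cast (Int.natAbs_pos.2 hN).ne'
  have e2 : padicValRat 2 ((N.natAbs : ℕ) : ℚ) = (padicValInt 2 N : ℤ) := by
    rw [padicValRat.of_nat]; rfl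
  rw [norm_eq_zpow 2 hx0, norm_eq_zpow 2 hN0, e2] at h1
  have h2 : ((2 : ℕ) : ℚ) ^ (-padicValRat 2 x + (-(padicValInt 2 N : ℤ)) * 2) =
      ((2 : ℕ) : ℚ) ^ (2 : ℤ) := by
    rw [zpow_add₀ (by norm_num), zpow_mul]
    rw [show (((2 : ℕ) : ℚ) ^ (-(padicValInt 2 N : ℤ))) ^ (2 : ℤ) =
      (((2 : ℕ) : ℚ) ^ (-(padicValInt 2 N : ℤ))) ^ 2 from by norm_cast, h1]
    norm_num
  have h3 := zpow_right_injective₀ (by norm_num) (by norm_num) h2
  omega

/-- the predicate `V2P` on indices -/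
theorem v2P_iff {M N : ℤ} (hM : M ≠ 0) (hN : N ≠ 0) :
    V2P ((2 * M) • P0) ((2 * N) • P0) ↔ padicValInt 2 N = 2 * padicValInt 2 M := by
  have : Fact (Nat.Prime 2) := ⟨Nat.prime_two⟩
  have h1 := hasX_xc (zsmul_P0_ne_zero (mul_ne_zero two_ne_zero hM))
  have h2 := hasX_xc (zsmul_P0_ne_zero (mul_ne_zero two_ne_zero hN))
  obtain ⟨a0, a1⟩ := val_even hM h1
  obtain ⟨b0, b1⟩ := val_even hN h2
  have h4 : (4 : ℚ) * xc ((2 * M) • P0) ^ 2 ≠ 0 := by positivity
  have e1 : padicValRat 2 (4 * xc ((2 * M) • P0) ^ 2) = 2 + 2 * padicValRat 2 (xc ((2 * M) • P0)) := by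
    rw [padicValRat.mul (by norm_num) (pow_ne_zero 2 a0), v24, padicValRat.pow]
    norm_num
  unfold V2P
  rw [padicValRat.div b0 h4, padicValRat.div h4 b0, e1, a1, b1]
  omega

end Vale.Agent.P027.R4.H815
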